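import Vale.Agent.P259.Tabs
import Mathlib.Topology.Category.CompactlyGenerated
import Mathlib.CategoryTheory.Localization.Predicate
import Mathlib.Analysis.InnerProductSpace.PiL2

open CategoryTheory Opposite

namespace Vale.Agent.P259.S

open Theta0

/-- The dimension of `U` is at most `N`. -/
def le (U : Theta0) (N : ℕ) : Prop := U.tab.rec (· ≤ N) fun {_} _ _ i _ _ h => h ∧ i ≤ N

/-- The structure maps: faces, inclusion of the last disc, inclusion in a gluing. -/
inductive Str : Theta0 → Theta0 → Type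
  | face {j i} : Bool → j < i → Str (disc j) (disc i)
  | last {l} (t : Tab l) : Str (disc l) ⟨t⟩
  | inl {l} (t : Tab l) (j i) (h : j < l) (h' : j < i) : Str ⟨t⟩ ⟨t.glue j i h h'⟩

/-- `P` sends the gluings to fibre products. -/
def Glues {P : Theta0 → Type} (r : ∀ {U V}, Str U V → P V → P U) : Prop :=
  ∀ {l} (t : Tab l) (j i) (h : j < l) (h' : j < i),
    Set.BijOn (fun x => (r (.inl t j i h h') x, r (.last (t.glue j i h h')) x)) Set.univ
      {z | r (.face true h) (r (.last t) z.1) = r (.face false h') z.2}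

/-- A globular extension structure on the category `Q`. -/
structure Glob (Q : Type) [SmallCategory Q] where
  o : Theta0 → Q
  bij : o.Bijective
  s : ∀ {U V}, Str U V → (o U ⟶ o V)
  face_face : ∀ {i j k : ℕ} (h : i < j) (h' : j < k) (h'' : i < k) b c,
    s (.face b h) ≫ s (.face c h') = s (.face b h'')
  last_D : ∀ i, s (.last (.disc i)) = 𝟙 (o (disc i))
  glue : ∀ W, Glues fun x (y : o _ ⟶ W) => s x ≫ y

/-- Globular extensions. -/
structure Ext where
  C : Type
  [cat : SmallCategory C]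
  G : Glob C

attribute [instance] Ext.cat

/-- Maps. -/
abbrev Ext.H (A : Ext) (U V : Theta0) : Type := A.G.o U ⟶ A.G.o V

/-- Composition. -/
def cmp {A : Ext} {U V W : Theta0} (f : A.H U V) (g : A.H V W) : A.H U W := f ≫ g

/-- Morphisms of globular extensions. -/
structure Map (A B : Ext) where
  m : ∀ {U V}, A.H U V → B.H U V
  id : ∀ U, m (𝟙 (A.G.o U)) = 𝟙 (B.G.o U)
  comp : ∀ {U V W} (f : A.H U V) (g : A.H V W), m (cmp f g) = cmp (m f) (m g)
  str : ∀ {U V} (x : Str U V), m (A.G.s x) = B.G.s x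

/-- Parallel pairs of maps `D_n ⟶ S`. -/
structure Pair (A : Ext) where
  n : ℕ
  S : Theta0
  p : Bool → A.H (disc n) S
  par : ∀ b {i} (h : i < n), cmp (A.G.s (.face b h)) (p false) = cmp (A.G.s (.face b h)) (p true)

/-- `f : D_{i+1} ⟶ U` is a lift of `z`. -/
def IsLift {A : Ext} {i : ℕ} {U : Theta0} (z : Bool → A.H (disc i) U) (f : A.H (disc i.succ) U) : Prop :=
  ∀ b, cmp (A.G.s (.face b i.lt_succ_self)) f = z b

/-- `L ∘ F = K`. -/
def Tri {A B X : Ext} (F : Map A B) (L : Map B X) (K : Map A X) : Prop :=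
  ∀ {U V} (f : A.H U V), L.m (F.m f) = K.m f

/-- `B` is obtained from `A` by universally adjoining lifts. -/
structure Adj {A B : Ext} (F : Map A B) where
  E : Pair A → Prop
  dim : ∀ {q}, E q → le q.S q.n.succ
  lift : ∀ {q}, E q → B.H (disc q.n.succ) q.S
  isLift : ∀ {q} (h : E q), IsLift (fun b => F.m (q.p b)) (lift h)
  univ : ∀ {X} (K : Map A X) (g : ∀ {q}, E q → X.H (disc q.n.succ) q.S),
    (∀ {q} (h : E q), IsLift (fun b => K.m (q.p b)) (g h)) →
      ∃! L, Tri F L K ∧ ∀ {q} (h : E q), L.m (lift h) = g h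

/-- A presentation of `A` as a colimit of a tower. -/
structure Tower (A : Ext) where
  st : ℕ → Ext
  zero : ∀ X, ∃! _ : Map (st 0) X, True
  next : ∀ k, Map (st k) (st k.succ)
  adj : ∀ k, Adj (next k)
  inc : ∀ k, Map (st k) A
  tri : ∀ k, Tri (next k) (inc k.succ) (inc k)
  colim : ∀ {X} (K : ∀ k, Map (st k) X), (∀ k, Tri (next k) (K k.succ) (K k)) →
    ∃! L, ∀ k, Tri (inc k) L (K k)

/-- Coherators. -/
def IsCoherator (A : Ext) : Prop := Nonempty (Tower A) ∧ ∀ q : Pair A, ∃ f, IsLift q.p f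

universe u

section

variable {K : Type u} [Category.{0} K]

/-- Weak equivalences. -/
def we {B : ℕ → K} (d : Bool → ∀ {i}, B i ⟶ B (Nat.succ i)) (c : ∀ {i}, B i ⟶ B 0) :
    MorphismProperty K := fun X Y F =>
  let R {X : K} {i : ℕ} (v w : B i ⟶ X) : Prop := ∃ h, d false ≫ h = v ∧ d true ≫ h = w
  (∀ v : B 0 ⟶ Y, ∃ w, ∀ z, R (z ≫ F) v ↔ R z w) ∧
  ∀ x i (v : B (Nat.succ i) ⟶ Y), (∀ b, d b ≫ v = c ≫ x ≫ F) →
    ∃ w, (∀ b, d b ≫ w = c ≫ x) ∧ ∀ z, (∀ b, d b ≫ z = c ≫ x) → (R (z ≫ F) v ↔ R z w)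

variable {Q : Type} [SmallCategory Q]

/-- `Hom(F(-), Y)` sends the gluings to fibre products. -/
def Gl (J : Glob Q) (F : Q ⥤ K) (Y : K) : Prop :=
  Glues fun x (y : F.obj (J.o _) ⟶ Y) => F.map (J.s x) ≫ y

/-- Balls. -/
structure IsBall {B : ℕ → CompactlyGenerated.{0, 0}} (d : Bool → ∀ {i}, B i ⟶ B i.succ) where
  e : ∀ i, B i → Fin i → ℝ
  emb : ∀ i, Topology.IsEmbedding (e i)
  range : ∀ i, Set.range (e i) = {x | ∑ j, x j ^ 2 ≤ 1}
  face : ∀ b i x, e i.succ ((d b).hom.hom x) =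
    Fin.snoc (α := fun _ => ℝ) (e i x) ((if b then 1 else -1) * √(1 - ∑ j, e i x j ^ 2))

/-- Disc functors. -/
def IsDisc (J : Glob Q) (F : Q ⥤ CompactlyGenerated.{0, 0}) : Prop :=
  (∀ Y, Gl J F Y) ∧ Nonempty (IsBall fun b {i} => F.map (J.s (.face b i.lt_succ_self)))

end

/-- `P` takes its values in `S`, it sends `W` to `W'` and it induces an equivalence
`K[W⁻¹] ⥤ S[W'⁻¹]`. -/
def LocEq {K L : Type 1} [Category.{0} K] [Category.{0} L] (F : K ⥤ L) (P : ObjectProperty L)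
    (W : MorphismProperty K) (W' : MorphismProperty L) : Prop :=
  ∃ h, W ≤ W'.inverseImage F ∧ (P.lift F h ⋙ (W'.inverseImage P.ι).Q).IsLocalization W

end Vale.Agent.P259.S
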