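import Vale.Agent.P259.Tabs
import Mathlib.Topology.Category.CompactlyGenerated
import Mathlib.CategoryTheory.Localization.Predicate
import Mathlib.Topology.Homotopy.HomotopyGroup
import Mathlib.Analysis.Real.Sqrt

open CategoryTheory

namespace Vale.Agent.P259.StmtB

open Theta0

/-- The dimension of `S` is at most `π`. -/
def Le (S : Theta0) (π : ℕ) : Prop := S.tab.rec (· ≤ π) fun {_} _ _ n _ _ h => h ∧ n ≤ π

/-- The structure maps: faces, inclusion of the last disc, inclusion in a gluing. -/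
inductive Str : Theta0 → Theta0 → Type
  | face {j n} : Bool → j < n → Str (disc j) (disc n)
  | inr {l} (t : Tab l) : Str (disc l) ⟨t⟩
  | inl {l} (t : Tab l) (j n) (lt : j < l) (le : j < n) : Str ⟨t⟩ ⟨t.glue j n lt le⟩

/-- `P` sends the gluings to fibre products. -/
def Glues {P : Theta0 → Type} (r : ∀ {S T}, Str S T → P T → P S) : Prop :=
  ∀ {l} (t : Tab l) (j n) (lt : j < l) (le : j < n),
    Set.BijOn (fun x => (r (.inl t j n lt le) x, r (.inr (t.glue j n lt le)) x)) Set.univ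
      {x | r (.face true lt) (r (.inr t) x.1) = r (.face false le) x.2}

/-- A globular extension structure on the category `Q`. -/
structure Glob (Q : Type) [SmallCategory Q] where
  o : Theta0 → Q
  bij : o.Bijective
  s : ∀ {S T}, Str S T → (o S ⟶ o T)
  face_face : ∀ {i j n : ℕ} (lt : i < j) (le : j < n) (h : i < n) ι c,
    s (.face ι lt) ≫ s (.face c le) = s (.face ι h)
  last_D : ∀ n, s (.inr (.disc n)) = 𝟙 (o (disc n))
  glue : ∀ U, Glues fun x (y : o _ ⟶ U) => s x ≫ y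

/-- Globular extensions. -/
structure Ext where
  C : Type
  [cat : SmallCategory C]
  G : Glob C

attribute [instance] Ext.cat

/-- Maps. -/
abbrev Ext.H (Q : Ext) (S T : Theta0) : Type := Q.G.o S ⟶ Q.G.o T

/-- Composition. -/
def cmp {Q : Ext} {S T U} (f : Q.H S T) (g : Q.H T U) : Q.H S U := f ≫ g

/-- Morphisms of globular extensions. -/
structure Map (Q B : Ext) where
  m : ∀ {S T}, Q.H S T → B.H S T
  id : ∀ S, m (𝟙 (Q.G.o S)) = 𝟙 (B.G.o S)
  comp : ∀ {S T U} (f : Q.H S T) (g : Q.H T U), m (cmp f g) = cmp (m f) (m g)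
  str : ∀ {S T} (x : Str S T), m (Q.G.s x) = B.G.s x

/-- Parallel pairs of maps from a disc. -/
structure Pair (Q : Ext) where
  dim : ℕ
  cod : Theta0
  arr : Bool → Q.H (disc dim) cod
  par : ∀ ι {j} (lt : j < dim), cmp (Q.G.s (.face ι lt)) (arr false) = cmp (Q.G.s (.face ι lt)) (arr true)

/-- `f : D_{n+1} ⟶ S` is a lift of `x`. -/
def IsLift {Q : Ext} {n S} (x : Bool → Q.H (disc n) S) (f : Q.H (disc n.succ) S) : Prop :=
  ∀ ι, cmp (Q.G.s (.face ι n.lt_succ_self)) f = x ι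

/-- `L ∘ F = K`. -/
def Tri {Q B X : Ext} (F : Map Q B) (L : Map B X) (K : Map Q X) : Prop :=
  ∀ {S T} (f : Q.H S T), L.m (F.m f) = K.m f

/-- `B` is obtained from `Q` by universally adjoining lifts. -/
structure Adj {Q B : Ext} (F : Map Q B) where
  E : Pair Q → Prop
  le : ∀ {π}, E π → Le π.cod π.dim.succ
  g : ∀ {π}, E π → B.H (disc π.dim.succ) π.cod
  lift : ∀ {π} (x : E π), IsLift (fun ι => F.m (π.arr ι)) (g x)
  univ : ∀ {X} (K : Map Q X) (f : ∀ {π}, E π → X.H (disc π.dim.succ) π.cod),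
    (∀ {π} (x : E π), IsLift (fun ι => K.m (π.arr ι)) (f x)) →
      ∃! L, Tri F L K ∧ ∀ {π} (x : E π), L.m (g x) = f x

/-- A presentation of `Q` as a colimit of a tower. -/
structure Tower (Q : Ext) where
  B : ℕ → Ext
  zero : ∀ X, ∃! _ : Map (B 0) X, True
  F : ∀ n, Map (B n) (B n.succ)
  adj : ∀ n, Adj (F n)
  ι : ∀ n, Map (B n) Q
  tri : ∀ n, Tri (F n) (ι n.succ) (ι n)
  colim : ∀ {X} (K : ∀ n, Map (B n) X), (∀ n, Tri (F n) (K n.succ) (K n)) →
    ∃! L, ∀ n, Tri (ι n) L (K n)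

/-- Coherators. -/
def IsCoherator (Q : Ext) : Prop := Nonempty (Tower Q) ∧ ∀ π : Pair Q, ∃ f, IsLift π.arr f

variable {K : Type 1} [Category.{0} K]

/-- Weak equivalences. -/
def we {B : ℕ → K} (d : Bool → ∀ {n}, B n ⟶ B n.succ) (c : ∀ {n}, B n ⟶ B 0) :
    MorphismProperty K := fun X Y F =>
  let R {X n} (u v : B n ⟶ X) : Prop := ∃ w, d false ≫ w = u ∧ d true ≫ w = v
  (∀ v : B 0 ⟶ Y, ∃ u, ∀ w, R (w ≫ F) v ↔ R w u) ∧
  ∀ x n (v : B (Nat.succ n) ⟶ Y), (∀ ι, d ι ≫ v = c ≫ x ≫ F) →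
    ∃ u, (∀ ι, d ι ≫ u = c ≫ x) ∧ ∀ w, (∀ ι, d ι ≫ w = c ≫ x) → (R (w ≫ F) v ↔ R w u)

variable {Q : Type} [SmallCategory Q]

/-- `Hom(F(-), Y)` sends the gluings to fibre products. -/
def Gl (J : Glob Q) (F : Q ⥤ K) (Y : K) : Prop :=
  Glues fun x (y : F.obj (J.o _) ⟶ Y) => F.map (J.s x) ≫ y

/-- Balls. -/
structure IsBall {B : ℕ → TopCat.{0}} (d : Bool → ∀ {n}, B n ⟶ B n.succ) where
  e : ∀ n, B n → Fin n → ℝ
  emb : ∀ n, Topology.IsEmbedding (e n)
  range : ∀ n, Set.range (e n) = {x | ∑ i, x i ^ 2 ≤ 1}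
  face : ∀ ι n x, e n.succ ((d ι).hom x) =
    Fin.snoc (α := fun _ => ℝ) (e n x) ((if ι then 1 else -1) * √(1 - ∑ i, e n x i ^ 2))

/-- Disc functors. -/
def IsDisc (J : Glob Q) (F : Q ⥤ CompactlyGenerated.{0,0}) : Prop :=
  (∀ Y, Gl J F Y) ∧
  Nonempty (IsBall fun ι {n} => (F ⋙ CompactlyGenerated.compactlyGeneratedToTop).map (J.s (.face ι n.lt_succ_self)))

/-- Weak homotopy equivalences: bijections on `π_0` and on all homotopy groups. -/
def whe : MorphismProperty TopCat.{0} := fun X Y f =>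
  (∀ y, ∃ x, ∀ w, Joined (f.hom w) y ↔ Joined w x) ∧
  ∀ n x (g : GenLoop (Fin n) X x → GenLoop (Fin n) Y (f.hom x)), (∀ u t, g u t = f.hom (u t)) →
    ∀ v, ∃ u, ∀ w, GenLoop.Homotopic (g w) v ↔ GenLoop.Homotopic w u

/-- `P` takes its values in `S`, it sends the class `W` of weak homotopy equivalences to `V` and
it induces an equivalence between the localizations. -/
def LocEq (P : CompactlyGenerated.{0,0} ⥤ K) (S : ObjectProperty K) (V : MorphismProperty K) : Prop :=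
  let W := whe.inverseImage CompactlyGenerated.compactlyGeneratedToTop
  ∃ h, W ≤ V.inverseImage P ∧ (S.lift P h ⋙ (V.inverseImage S.ι).Q).IsLocalization W

end Vale.Agent.P259.StmtB
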