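import Mathlib.Data.Nat.Notation

namespace Vale.Agent.P259

/-- Tables of dimensions `i_1, j_1, i_2, …, j_{k-1}, i_k` with `j_l < min(i_l, i_{l+1})`.
The index is the last dimension `i_k`. -/
inductive Tab : ℕ → Type
  | disc (i : ℕ) : Tab i
  | glue {l : ℕ} (t : Tab l) (j i : ℕ) (hl : j < l) (hi : j < i) : Tab i

/-- Objects of `Θ₀`: globular sums, given by tables of dimensions. -/
structure Theta0 where
  {last : ℕ}
  tab : Tab last

/-- The globular sum `D_n`. -/
def Theta0.disc (i : ℕ) : Theta0 := ⟨.disc i⟩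

end Vale.Agent.P259
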